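import Vale.Agent.P261Z.PB.Pol

/-!
# P261Z, block N6: `p`-bases of rings of power series, the chain rule without continuity
-/

noncomputable section

namespace P261.PB

open Finset MvPowerSeries

variable {p : ℕ} [hp : Fact p.Prime] {R S B σ : Type*} [CommRing R] [CommRing S] [CommRing B]
  {c n : ℕ}

instance [Ch p R] : Ch p (MvPowerSeries σ R) := Ch.of_hom (C : R →+* MvPowerSeries σ R)

instance [Ch p R] : Ch p (PowerSeries R) := Ch.of_hom (PowerSeries.C : R →+* PowerSeries R)

theorem pow_p_series [Ch p R] (f : MvPowerSeries σ R) :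
    f ^ p = expand p hp.out.ne_zero (map (fr p R) f) := by
  rcases subsingleton_or_nontrivial R with h | h
  · ext; exact Subsingleton.elim _ _
  · have : CharP R p := Ch.charP
    rw [← map_expand]
    exact (map_frobenius_expand p _).symm

theorem pow_pp_series [Ch p R] (m : ℕ) (f : MvPowerSeries σ R) :
    f ^ p ^ m = expand (p ^ m) (pow_ne_zero m hp.out.ne_zero) (map (fr p R ^ m) f) := by
  induction m with
  | zero => simp [RingHom.one_def]
  | succ m ih =>
    conv_lhs => rw [pow_succ, pow_mul, ih, pow_p_series, map_expand, ← expand_mul,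
      MvPowerSeries.map_map]
    simp only [pow_succ']
    rfl

variable [Fintype σ]

/-- an exponent with bounded entries -/
def ex (al : σ → Fin n) : σ →₀ ℕ := Finsupp.equivFunOnFinite.symm fun i => al i

theorem monomial_ex (al : σ → Fin n) :
    (monomial (ex al) 1 : MvPowerSeries σ R) = ∏ i, X i ^ (al i : ℕ) := by
  classical
  simp only [X_pow_eq, prod_monomial, prod_const_one]
  congr 2
  ext i
  simp [ex, Finsupp.finsetSum_apply, Finsupp.single_apply]

open Classical in
theorem coeff_dig (hn : n ≠ 0) (φ : MvPowerSeries σ R) (d : σ →₀ ℕ) (al be : σ → Fin n) :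
    coeff (n • d + ex al) (expand n hn φ * ∏ i, X i ^ (be i : ℕ)) =
      if be = al then coeff d φ else 0 := by
  rw [← monomial_ex]
  split_ifs with h
  · rw [h, coeff_add_mul_monomial, coeff_expand_smul, mul_one]
  · obtain ⟨i, hi⟩ := Function.ne_iff.1 h
    rw [coeff_mul_monomial]
    split_ifs with h1
    · rw [coeff_expand_of_not_dvd n hn φ (i := i), zero_mul]
      intro h2
      have h3 : n * d i + al i ≡ be i [MOD n] := ((Nat.modEq_iff_dvd' (h1 i)).2 h2).symm
      rw [Nat.ModEq, Nat.mul_add_mod, Nat.mod_eq_of_lt (al i).2, Nat.mod_eq_of_lt (be i).2] at h3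
      exact hi (Fin.ext h3.symm)
    · rfl

theorem exists_dig (hn : n ≠ 0) (m : σ →₀ ℕ) : ∃ (d : σ →₀ ℕ) (al : σ → Fin n), m = n • d + ex al :=
  ⟨Finsupp.equivFunOnFinite.symm fun i => m i / n,
    fun i => ⟨m i % n, Nat.mod_lt _ (Nat.pos_of_ne_zero hn)⟩,
    Finsupp.ext fun i => (Nat.div_add_mod (m i) n).symm⟩

open Classical in
/-- sorting a series by the residues of the exponents -/
theorem exists_expand (hn : n ≠ 0) (φ : MvPowerSeries σ R) :
    ∃ ψ : (σ → Fin n) → MvPowerSeries σ R, (∀ al d, coeff d (ψ al) = coeff (n • d + ex al) φ) ∧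
      φ = ∑ al, expand n hn (ψ al) * ∏ i, X i ^ (al i : ℕ) := by
  obtain ⟨ψ, h⟩ : ∃ ψ : (σ → Fin n) → MvPowerSeries σ R,
      ∀ al d, coeff d (ψ al) = coeff (n • d + ex al) φ :=
    ⟨fun al d => coeff (n • d + ex al) φ, fun _ _ => rfl⟩
  refine ⟨ψ, h, MvPowerSeries.ext fun m => ?_⟩
  obtain ⟨d, al, rfl⟩ := exists_dig hn m
  simp only [map_sum, coeff_dig, sum_ite_eq', mem_univ, if_true, h]

theorem sp_series [Pf p R] (v : MvPowerSeries (Fin c) R) :
    SP (⊤ : Subring (MvPowerSeries (Fin c) R)) v 0 p X := fun g _ => by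
  obtain ⟨ψ, -, h⟩ := exists_expand hp.out.ne_zero g
  refine ⟨fun al => map (rt p R) (ψ al), fun _ => trivial, ?_⟩
  rw [pow_zero, one_mul]
  refine h.trans ((congrArg (fun s => Finset.sum s _) (Finset.ext fun _ => by simp)).trans
    (sum_congr rfl fun al _ => ?_))
  rw [pow_p_series, MvPowerSeries.map_map,
    show (fr p R).comp (rt p R) = RingHom.id R from RingHom.ext fr_rt, MvPowerSeries.map_id]
  rfl

theorem ind_series [Pf p R] : IND p (X : Fin c → MvPowerSeries (Fin c) R) := fun r hr al => by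
  ext d
  have h := congrArg (coeff (p • d + ex al)) hr
  simp only [map_sum, pow_p_series, mn, mon, coeff_dig, sum_ite_eq', mem_univ, if_true] at h
  exact eq_zero_of_pow (N := p) h

/-- series are generated by `p`-th powers, the variables and a `p`-basis of the coefficients -/
theorem gen_series [Ch p R] {v : R} {u : Fin c → R} (h : SP ⊤ v 0 p u)
    (T : Subring (MvPowerSeries σ R)) (h1 : ∀ s, s ^ p ∈ T) (h2 : ∀ j, C (u j) ∈ T)
    (h3 : ∀ i, X i ∈ T) (φ : MvPowerSeries σ R) : φ ∈ T := by
  obtain ⟨ψ, -, rfl⟩ := exists_expand hp.out.ne_zero φ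
  refine sum_mem fun al _ => mul_mem ?_ (prod_mem fun i _ => pow_mem (h3 i) _)
  choose r _ hr using fun d => h (coeff d (ψ al)) trivial
  obtain ⟨ρ, hρ⟩ : ∃ ρ : (Fin c → Fin p) → MvPowerSeries σ R, ∀ be d, coeff d (ρ be) = r d be :=
    ⟨fun be d => r d be, fun _ _ => rfl⟩
  have e : ψ al = ∑ be, map (fr p R) (ρ be) * C (mn u be) := by
    ext d
    simp only [map_sum, coeff_mul_C, coeff_map, hρ]
    exact (one_mul _).symm.trans (pow_zero v ▸ hr d)
  rw [e, map_sum]
  refine sum_mem fun be _ => ?_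
  rw [map_mul, ← pow_p_series, expand_C, map_mn]
  exact mul_mem (h1 _) (mn_mem h2 _)

/-- forgetting the constants of a derivation -/
def toZ {A : Type*} [CommRing A] [Algebra A S] (D : Derivation A S S) : Derivation ℤ S S :=
  Derivation.mk' (D : S →ₗ[A] S).toAddMonoidHom.toIntLinearMap D.leibniz

omit hp in
@[simp] theorem toZ_apply {A : Type*} [CommRing A] [Algebra A S] (D : Derivation A S S) (s : S) :
    toZ D s = D s := rfl

omit hp in
/-- the chain rule -/
theorem chain [Ch p S] [Ch p B] {ι : Type*} [Fintype ι] [DecidableEq ι] (f : S →+* B) (z : ι → S)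
    (hz : ∀ T : Subring S, (∀ s, s ^ p ∈ T) → (∀ i, z i ∈ T) → ∀ s, s ∈ T)
    (d : ι → Derivation ℤ S S) (hd : ∀ i l, d i (z l) = if i = l then 1 else 0)
    (D : Derivation ℤ B B) (s : S) : D (f s) = ∑ i, f (d i s) * D (f (z i)) :=
  hz { carrier := {s | D (f s) = ∑ i, f (d i s) * D (f (z i))}
       mul_mem' := fun {a b} ha hb => by
        simp only [Set.mem_ofPred_eq] at ha hb ⊢
        simp only [map_mul, Derivation.leibniz, smul_eq_mul, map_add, ha, hb, add_mul,
          sum_add_distrib, mul_sum, mul_assoc]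
       one_mem' := by simp
       add_mem' := fun {a b} ha hb => by
        simp only [Set.mem_ofPred_eq] at ha hb ⊢
        simp only [map_add, ha, hb, add_mul, sum_add_distrib]
       zero_mem' := by simp
       neg_mem' := fun {a} ha => by
        simp only [Set.mem_ofPred_eq] at ha ⊢
        simp only [map_neg, ha, neg_mul, sum_neg_distrib] }
    (fun s => by
      show D (f (s ^ p)) = ∑ i, f (d i (s ^ p)) * D (f (z i))
      simp only [der_pow_p, map_pow, map_zero, zero_mul, sum_const_zero])
    (fun l => by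
      show D (f (z l)) = ∑ i, f (d i (z l)) * D (f (z i))
      simp [hd]) s

/-- the chain rule for series in one variable -/
theorem dy [Ch p R] [Ch p B] {v : R} {u : Fin c → R} (h : SP ⊤ v 0 p u)
    (E : PowerSeries R →+* B) {A : Type*} [CommRing A] [Algebra A (PowerSeries R)]
    (d : Fin c → Derivation A (PowerSeries R) (PowerSeries R))
    (hd : ∀ j l, d j (PowerSeries.C (u l)) = if j = l then 1 else 0)
    (hX : ∀ j, d j PowerSeries.X = 0) (D : Derivation ℤ B B) (φ : PowerSeries R) :
    D (E φ) = E (PowerSeries.derivative R φ) * D (E PowerSeries.X) +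
      ∑ j, E (d j φ) * D (E (PowerSeries.C (u j))) := by
  have := chain E (fun o : Option (Fin c) => o.elim PowerSeries.X fun j => PowerSeries.C (u j))
    (fun T h1 h2 => gen_series h T h1 (fun j => h2 (some j)) fun _ => h2 none)
    (fun o => o.elim (toZ (PowerSeries.derivative R)) fun j => toZ (d j))
    (by rintro (_ | i) (_ | l) <;> simp [hd, hX]) D φ
  rwa [Fintype.sum_option] at this

variable {Lam : Subring B} {v : B} {M : ℕ}

omit hp in
theorem JAC.of_mul {u y : Fin c → B} {Δ : Matrix (Fin c) (Fin c) B} {w : B} (hw : w ∈ Lam)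
    (hΔ : Δ.det * w = v ^ M) {a : Fin c → B} (ha : ∀ i, a i ∈ Lam)
    (h : ∀ D : Fin c → Derivation ℤ B B, (∀ j l, D j (u l) = if j = l then 1 else 0) →
      ∀ i j, Δ i j = a i * D j (y i)) : JAC Lam v M u y := fun D hD =>
  ⟨(∏ i, a i) * w, mul_mem (prod_mem fun i _ => ha i) hw, by
    rw [← mul_assoc, mul_comm _ (∏ i, a i), ← Matrix.det_mul_column, ← hΔ]
    congr 2
    ext i j
    exact (h D hD i j).symm⟩

variable [Ch p R] [Ch p B] {v₀ : R} {u : Fin c → R} (h : SP ⊤ v₀ 0 p u)
  {A : Type*} [CommRing A] [Algebra A (PowerSeries R)]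
  {d : Fin c → Derivation A (PowerSeries R) (PowerSeries R)}
  (hd : ∀ j l, d j (PowerSeries.C (u l)) = if j = l then 1 else 0)
  (hX : ∀ j, d j PowerSeries.X = 0) {f : R →+* B} {E : Fin c → PowerSeries R →+* B}
  (hC : ∀ i r, E i (PowerSeries.C r) = f r) (hE : ∀ i φ, E i φ ∈ Lam)

include h hd hX hC hE

/-- the Jacobian of roots of a series -/
theorem JAC.of_ker {ψ : PowerSeries R} (hψ : ∀ i, E i ψ = 0) {w : B} (hw : w ∈ Lam)
    (hΔ : (Matrix.of fun i j => E i (d j ψ)).det * w = v ^ M) :
    JAC Lam v M (fun j => f (u j)) fun i => E i PowerSeries.X :=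
  JAC.of_mul hw hΔ (a := fun i => -E i (PowerSeries.derivative R ψ)) (fun i => neg_mem (hE i _))
    fun D hD i j => by
      have := dy h (E i) d hd hX (D j) ψ
      simp only [hψ, map_zero, hC, hD, mul_ite, mul_one, mul_zero, sum_ite_eq, mem_univ,
        if_true] at this
      rw [Matrix.of_apply]
      linear_combination -this

omit hC in
/-- the Jacobian of preimages under a series with constant coefficients -/
theorem JAC.step {φ : PowerSeries R} (hφ : ∀ j, d j φ = 0)
    (hJ : JAC Lam v M (fun j => f (u j)) fun i => E i φ) :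
    JAC Lam v M (fun j => f (u j)) fun i => E i PowerSeries.X := fun D hD => by
  obtain ⟨w, hw, e⟩ := hJ D hD
  refine ⟨(∏ i, E i (PowerSeries.derivative R φ)) * w, mul_mem (prod_mem fun i _ => hE i _) hw, ?_⟩
  rw [← mul_assoc, mul_comm _ (∏ i, _), ← Matrix.det_mul_column, ← e]
  congr 2
  ext i j
  have := dy h (E i) d hd hX (D j) φ
  simp only [hφ, map_zero, zero_mul, sum_const_zero, add_zero] at this
  exact this.symm

end P261.PB
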