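import Vale.Agent.P261Z.PB.Sep
import Vale.Agent.P261Z.PB.Ser

/-!
# P261Z, block N6: the statements inside a perfect ambient ring
-/

noncomputable section

namespace P261.PB

open Finset

variable {p : ℕ} [hp : Fact p.Prime] {R U Δ I : Type*} [CommRing R] [CommRing U] {c : ℕ}

/-- `T = Lam[1/v]` inside `U` -/
structure LatOn (T Lam : Subring U) (v : U) : Prop where
  le : Lam ≤ T
  mem : v ∈ Lam
  unit : ∃ w ∈ T, v * w = 1
  exh : ∀ b ∈ T, ∃ t : ℕ, v ^ t * b ∈ Lam

/-- independence over `n`-th powers of elements of `T` -/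
def INDon (T : Subring U) (n : ℕ) (y : Fin c → U) : Prop :=
  ∀ r : (Fin c → Fin n) → U, (∀ al, r al ∈ T) → ∑ al, r al ^ n * mn y al = 0 → ∀ al, r al = 0

/-- Galois data up to `v^N` inside `U` -/
structure GalOn [Fintype Δ] [DecidableEq Δ] [Fintype I] (N : ℕ) (T Lam : Subring U) (v : U)
    (f : R →+* U) (σ : Δ → U →+* U) (δ₀ : Δ) (a b : I → U) : Prop where
  inj : Function.Injective f
  mem : ∀ r, f r ∈ Lam
  base : ∀ g ∈ T, σ δ₀ g = g
  fix : ∀ δ r, σ δ (f r) = f r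
  a_mem : ∀ i, a i ∈ Lam
  b_mem : ∀ i, b i ∈ Lam
  sep : ∀ δ, ∑ i, a i * σ δ (b i) = if δ = δ₀ then v ^ N else 0
  tr : ∀ g ∈ Lam, ∃ r, f r = ∑ δ, σ δ g

/-- a chain of points: `E L i` is the evaluation at the `i`-th point of level `L`, the points of
level `0` are roots of `ψ 0`, and `ψ (L + 1)` maps level `L + 1` to level `L` -/
structure Chain {A : Type*} [CommRing A] [Algebra A (PowerSeries R)] (M m : ℕ) (Lam : Subring U)
    (v : U) (f : R →+* U) (u : Fin c → R)
    (d : Fin c → Derivation A (PowerSeries R) (PowerSeries R))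
    (E : ℕ → Fin c → PowerSeries R →+* U) (ψ : ℕ → PowerSeries R) : Prop where
  d_C : ∀ j l, d j (PowerSeries.C (u l)) = if j = l then 1 else 0
  d_X : ∀ j, d j PowerSeries.X = 0
  E_C : ∀ L ≤ m, ∀ i r, E L i (PowerSeries.C r) = f r
  E_mem : ∀ L ≤ m, ∀ i φ, E L i φ ∈ Lam
  ker : ∀ i, E 0 i (ψ 0) = 0
  step : ∀ L < m, ∀ i, E (L + 1) i (ψ (L + 1)) = E L i PowerSeries.X
  const : ∀ L < m, ∀ j, d j (ψ (L + 1)) = 0
  det : ∃ w ∈ Lam, (Matrix.of fun i j => E 0 i (d j (ψ 0))).det * w = v ^ M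

variable {T Lam : Subring U} {v : U}

omit hp in
theorem LatOn.lat (h : LatOn T Lam v) : Lat (Lam.comap T.subtype) ⟨v, h.le h.mem⟩ where
  unit := by
    obtain ⟨w, hw, e⟩ := h.unit
    exact IsUnit.of_mul_eq_one ⟨w, hw⟩ (Subtype.ext e)
  mem := h.mem
  exh b := h.exh b b.2

omit hp in
theorem LatOn.isUnit (h : LatOn T Lam v) : IsUnit v := h.lat.unit.map T.subtype

/-- the points of the top level of a chain are a `p`-basis of `T`, with a loss which does not
depend on the length of the chain -/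
theorem main [Ch p U] [Fintype Δ] [DecidableEq Δ] [Fintype I] {N M m : ℕ} {f : R →+* U}
    {σ : Δ → U →+* U} {δ₀ : Δ} {a b : I → U} {v₀ : R} {u : Fin c → R} {A : Type*} [CommRing A]
    [Algebra A (PowerSeries R)] {d : Fin c → Derivation A (PowerSeries R) (PowerSeries R)}
    {E : ℕ → Fin c → PowerSeries R →+* U} {ψ : ℕ → PowerSeries R} (hL : LatOn T Lam v)
    (hu : SP ⊤ v₀ 0 p u) (hu' : IND p u) (G : GalOn N T Lam v f σ δ₀ a b)
    (C : Chain M m Lam v f u d E ψ) (k : ℕ) :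
    SP Lam v (p ^ k * loss p c (p * N) M) (p ^ k) (fun i => E m i PowerSeries.X) ∧
      INDon T (p ^ k) fun i => E m i PowerSeries.X := by
  have : Ch p R := Ch.of_inj f G.inj
  let f' : R →+* T := f.codRestrict T fun r => hL.le (G.mem r)
  have G' : Gal N (Lam.comap T.subtype) ⟨v, hL.le hL.mem⟩ f' T.subtype
      (fun δ => (σ δ).comp T.subtype) δ₀ (fun i => ⟨a i, hL.le (G.a_mem i)⟩)
      fun i => ⟨b i, hL.le (G.b_mem i)⟩ :=
    { inj := Subtype.val_injective
      inj' := fun _ _ h => G.inj (congrArg Subtype.val h)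
      mem := G.mem
      base := RingHom.ext fun g => G.base g g.2
      fix := G.fix
      a_mem := G.a_mem
      b_mem := G.b_mem
      sep := G.sep
      tr := fun g hg => G.tr g hg }
  let E' : ∀ L ≤ m, Fin c → PowerSeries R →+* T := fun L h i =>
    (E L i).codRestrict T fun φ => hL.le (C.E_mem L h i φ)
  have hJ : ∀ L (h : L ≤ m), JAC (Lam.comap T.subtype) ⟨v, hL.le hL.mem⟩ M (fun j => f' (u j))
      fun i => E' L h i PowerSeries.X := fun L => by
    induction L with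
    | zero =>
      obtain ⟨w, hw, e⟩ := C.det
      refine fun h => JAC.of_ker hu C.d_C C.d_X (fun i r => Subtype.ext (C.E_C 0 h i r))
        (C.E_mem 0 h) (ψ := ψ 0) (fun i => Subtype.ext (C.ker i)) (w := ⟨w, hL.le hw⟩) hw
        (Subtype.ext (Eq.trans ?_ e))
      exact congrArg (· * w) (T.subtype.map_det _)
    | succ L ih =>
      refine fun h => JAC.step hu C.d_C C.d_X (C.E_mem _ h) (C.const L h) ?_
      convert ih (Nat.le_of_succ_le h) using 2 with i
      exact Subtype.ext (C.step L h i)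
  obtain ⟨h1, h2⟩ := change hL.lat (G'.sp hu) (G'.ind hL.lat hu') (fun l => G.mem _)
    (fun l => C.E_mem m le_rfl l _) (hJ m le_rfl)
  refine ⟨fun g hg => ?_, fun r hr e al => ?_⟩
  · obtain ⟨r, hr, e⟩ := h1.pow hL.mem k ⟨g, hL.le hg⟩ hg
    refine ⟨fun al => r al, hr, ?_⟩
    have := congrArg T.subtype e
    simp only [map_mul, map_pow, map_sum, map_mn] at this
    exact this
  · refine congrArg Subtype.val (h2.pow k (fun al => ⟨r al, hr al⟩) (T.subtype_injective ?_) al)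
    simp only [map_mul, map_pow, map_sum, map_mn, map_zero]
    exact e

variable (p T) in
/-- the elements whose `p^k`-th power lies in `T` -/
def rtA [Ch p U] (k : ℕ) : Subalgebra T U where
  carrier := {x | x ^ p ^ k ∈ T}
  mul_mem' {a b} ha hb := show (a * b) ^ p ^ k ∈ T from (mul_pow a b _).symm ▸ mul_mem ha hb
  add_mem' {a b} ha hb := show (a + b) ^ p ^ k ∈ T from (add_pow_pp a b k).symm ▸ add_mem ha hb
  algebraMap_mem' r := pow_mem r.2 _

theorem mem_rtA [Ch p U] {k : ℕ} {x : U} : x ∈ rtA p T k ↔ x ^ p ^ k ∈ T := Iff.rfl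

theorem coe_sum_mn [Ch p U] {k n : ℕ} (x : Fin c → rtA p T k) (r : (Fin c → Fin n) → T) :
    ((∑ al, r al • mn x al : rtA p T k) : U) = ∑ al, (r al : U) * mn (fun i => (x i : U)) al := by
  show (rtA p T k).val _ = _
  simp only [map_sum, map_smul, map_mn]
  rfl

variable [Pf p U] {k e : ℕ} {x y : Fin c → U}

theorem mem_rtA' {x : U} : x ∈ rtA p T k ↔ x ∈ T.map (rt p U ^ k) :=
  ⟨fun h => ⟨_, h, rt_pow_pp' k x⟩, by rintro ⟨t, ht, rfl⟩; rwa [mem_rtA, rt_pow_pp]⟩

theorem sum_root (hx : ∀ i, x i ^ p ^ k = y i) (r : (Fin c → Fin (p ^ k)) → U) :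
    (∑ al, r al * mn x al) ^ p ^ k = ∑ al, r al ^ p ^ k * mn y al := by
  simp only [sum_pow_pp, mul_pow, mn, ← mon_pow, hx]

theorem SP.root (h : SP Lam v (p ^ k * e) (p ^ k) y) (hx : ∀ i, x i ^ p ^ k = y i) {z : U}
    (hz : z ^ p ^ k ∈ Lam) : ∃ r : (Fin c → Fin (p ^ k)) → U, (∀ al, r al ∈ Lam) ∧
      v ^ e * z = ∑ al, r al * mn x al := by
  obtain ⟨r, hr, e1⟩ := h _ hz
  exact ⟨r, hr, pow_pp_inj k (by rw [sum_root hx, ← e1, mul_pow, ← pow_mul, mul_comm e])⟩

theorem INDon.root (h : INDon T (p ^ k) y) (hx : ∀ i, x i ^ p ^ k = y i)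
    {r : (Fin c → Fin (p ^ k)) → U} (hr : ∀ al, r al ∈ T) (e : ∑ al, r al * mn x al = 0) :
    ∀ al, r al = 0 :=
  h r hr (by rw [← sum_root hx, e, zero_pow (pow_ne_zero _ hp.out.ne_zero)])

/-- the ring of level `k` is free over `T` on the monomials in the roots -/
theorem isMon_rtA (hL : LatOn T Lam v) (h : SP Lam v (p ^ k * e) (p ^ k) y)
    (h' : INDon T (p ^ k) y) {x : Fin c → rtA p T k} (hx : ∀ i, (x i : U) ^ p ^ k = y i) :
    IsMon T (p ^ k) x where
  pos := pow_pos hp.out.pos k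
  pw i := ⟨⟨_, (x i).2⟩, rfl⟩
  ind := Fintype.linearIndependent_iff.2 fun g hg al => Subtype.ext
    (h'.root hx (r := fun al => g al) (fun al => (g al).2) (by
      rw [← coe_sum_mn, hg]; rfl) al)
  sp z _ := by
    obtain ⟨t, ht⟩ := hL.exh _ z.2
    obtain ⟨w, hw, e1⟩ := hL.unit
    obtain ⟨r, hr, e2⟩ := h.root hx (z := v ^ t * z) (by
      rw [mul_pow, ← pow_mul]
      exact Pol_mono hL.mem (Nat.le_mul_of_pos_right _ (pow_pos hp.out.pos k)) ht)
    have e3 : z = ∑ al, (⟨w ^ (e + t) * r al, mul_mem (pow_mem hw _) (hL.le (hr al))⟩ : T) •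
        mn x al := Subtype.ext (by
      rw [coe_sum_mn]
      show (z : U) = ∑ al, w ^ (e + t) * r al * mn (fun i => (x i : U)) al
      simp only [mul_assoc, ← mul_sum, ← e2]
      rw [← mul_assoc (v ^ e), ← pow_add, ← mul_assoc, ← mul_pow, mul_comm w, e1, one_pow, one_mul])
    rw [e3]
    exact sum_mem fun al _ => Submodule.smul_mem _ _ (Submodule.subset_span ⟨al, rfl⟩)

/-- the loss for the coordinates -/
theorem repr_mem (hL : LatOn T Lam v) (h : SP Lam v (p ^ k * e) (p ^ k) y)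
    {x : Fin c → rtA p T k} (hx : ∀ i, (x i : U) ^ p ^ k = y i) (hm : IsMon T (p ^ k) x)
    {z : rtA p T k} {t : ℕ} (hz : (v ^ t * z) ^ p ^ k ∈ Lam) (al : Fin c → Fin (p ^ k)) :
    v ^ (e + t) * (hm.basis.repr z al : U) ∈ Lam := by
  obtain ⟨r, hr, e1⟩ := h.root hx hz
  have e2 : (⟨v ^ (e + t), pow_mem (hL.le hL.mem) _⟩ : T) • z =
      ∑ al, (⟨r al, hL.le (hr al)⟩ : T) • hm.basis al := Subtype.ext (by
    simp only [IsMon.basis_apply, coe_sum_mn]
    rw [← mul_assoc, ← pow_add] at e1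
    exact e1)
  have e3 := congrArg (fun z => (hm.basis.repr z al : U)) e2
  simp only [map_smul, Module.Basis.repr_sum_self, Finsupp.smul_apply, smul_eq_mul,
    Subring.coe_mul] at e3
  exact e3 ▸ hr al

end P261.PB
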