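import Vale.Agent.P261Z.PB.Mon

/-!
# P261Z, block N6: derivations in characteristic `p`, Taylor expansion
-/

noncomputable section

namespace P261.PB

open Finset

variable {p : ℕ} [hp : Fact p.Prime] {A B : Type*} [CommRing A] [CommRing B] {c : ℕ}

theorem isUnit_nat [Ch p B] {k : ℕ} (h0 : 0 < k) (hk : k < p) : IsUnit (k : B) := by
  have hc : Nat.Coprime k p :=
    ((Nat.Prime.coprime_iff_not_dvd hp.out).2 (Nat.not_dvd_of_pos_of_lt h0 hk)).symm
  have h := (Nat.isCoprime_iff_coprime.2 hc).map (Int.castRingHom B)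
  simp only [eq_intCast, Int.cast_natCast] at h
  rw [Ch.char (p := p) (K := B)] at h
  exact isCoprime_zero_right.1 h

theorem isUnit_fact [Ch p B] {k : ℕ} (hk : k < p) : IsUnit ((k.factorial : ℕ) : B) := by
  induction k with
  | zero => simp
  | succ k ih =>
    rw [Nat.factorial_succ, Nat.cast_mul]
    exact (isUnit_nat k.succ_pos hk).mul (ih (k.lt_succ_self.trans hk))

/-- an integer inverse of `k!` -/
theorem exists_inv_fact [Ch p B] {k : ℕ} (hk : k < p) :
    ∃ z : ℤ, (z : B) * (k.factorial : ℕ) = 1 := by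
  have hc : Nat.Coprime k.factorial p :=
    ((Nat.Prime.coprime_iff_not_dvd hp.out).2 fun h =>
      absurd ((Nat.Prime.dvd_factorial hp.out).1 h) (not_le.2 hk)).symm
  obtain ⟨a, b, hab⟩ := Nat.isCoprime_iff_coprime.2 hc
  refine ⟨a, ?_⟩
  have h := congrArg (Int.cast : ℤ → B) hab
  simp only [Int.cast_add, Int.cast_mul, Int.cast_natCast, Int.cast_one] at h
  rwa [Ch.char (p := p) (K := B), mul_zero, add_zero] at h

variable [Algebra A B]

omit hp in
theorem iter_mul (D : Derivation A B B) (n : ℕ) (a b : B) :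
    D^[n] (a * b) = ∑ ij ∈ antidiagonal n, n.choose ij.1 • (D^[ij.1] a * D^[ij.2] b) := by
  induction n with
  | zero => simp
  | succ n ih =>
    rw [sum_antidiagonal_choose_succ_nsmul (M := B) (fun i j => D^[i] a * D^[j] b) n]
    simp only [Function.iterate_succ_apply', ih, map_sum, map_nsmul, Derivation.leibniz,
      smul_eq_mul, smul_add, sum_add_distrib]
    congr 1
    refine sum_congr rfl fun ⟨i, j⟩ hij => ?_
    rw [n.choose_symm_of_eq_add (mem_antidiagonal.1 hij).symm, mul_comm]

omit hp in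
theorem iter_eq (D : Derivation A B B) (n : ℕ) (b : B) :
    D^[n] b = ((D : B →ₗ[A] B) ^ n) b := by
  rw [Module.End.pow_apply]; rfl

/-- the `p`-th power of a derivation -/
def powDer [Ch p B] (D : Derivation A B B) : Derivation A B B :=
  Derivation.mk' ((D : B →ₗ[A] B) ^ p) fun a b => by
    rw [← iter_eq, ← iter_eq, ← iter_eq, iter_mul]
    have hp0 : p ≠ 0 := hp.out.ne_zero
    rw [← sum_subset (s₁ := {(0, p), (p, 0)})]
    · rw [sum_pair (by simp [hp0])]
      simp [mul_comm]
    · intro x hx
      simp only [mem_insert, mem_singleton] at hx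
      rcases hx with rfl | rfl <;> simp
    · rintro ⟨i, j⟩ hij hx
      have e := mem_antidiagonal.1 hij
      simp only [mem_insert, mem_singleton, Prod.mk.injEq, not_or, not_and] at hx e
      have h0 : i ≠ 0 := fun h => hx.1 h (by omega)
      have h1 : i < p := lt_of_le_of_ne (by omega) fun h => hx.2 h (by omega)
      obtain ⟨k, hk⟩ := hp.out.dvd_choose_self h0 h1
      rw [hk, nsmul_eq_mul, Nat.cast_mul, Ch.char (p := p) (K := B), zero_mul, zero_mul]

theorem powDer_apply [Ch p B] (D : Derivation A B B) (b : B) : powDer (p := p) D b = D^[p] b :=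
  (iter_eq D p b).symm

omit hp in
/-- derivations kill `p`-th powers -/
theorem der_pow_p {M : Type*} [AddCommGroup M] [Module B M] [Module A M] [Ch p B]
    (D : Derivation A B M) (b : B) : D (b ^ p) = 0 := by
  rw [Derivation.leibniz_pow, ← Nat.cast_smul_eq_nsmul B, Ch.char (p := p) (K := B), zero_smul]

omit hp in
theorem iter_mul_pow (D : Derivation A B B) {y k : B} (hy : D y = 1) (hk : D k = 0) (n : ℕ) :
    D^[n] (k * y ^ n) = k * (n.factorial : ℕ) := by
  induction n generalizing k with
  | zero => simp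
  | succ n ih =>
    have h1 : D (k * y ^ (n + 1)) = (k * (n + 1 : ℕ)) * y ^ n := by
      rw [Derivation.leibniz, hk, Derivation.leibniz_pow, hy]
      simp only [smul_eq_mul, nsmul_eq_mul, Nat.add_sub_cancel]
      ring
    have h2 : D (k * (n + 1 : ℕ)) = 0 := by
      rw [Derivation.leibniz, hk, Derivation.map_natCast]; simp
    rw [Function.iterate_succ_apply, h1, ih h2, Nat.factorial_succ, Nat.cast_mul, mul_assoc]

/-- Taylor expansion in one variable, inside a family `S` of subgroups: `D` shifts by `d` -/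
theorem taylor [Ch p B] (D : Derivation A B B) {y : B} (hy : D y = 1) (S : ℕ → AddSubgroup B)
    (hmo : Monotone S) (d : ℕ) (hD : ∀ t, ∀ b ∈ S t, D b ∈ S (t + d))
    (hS : ∀ t, ∀ b ∈ S t, b * y ∈ S t)
    (n : ℕ) (hn : n ≤ p) (t : ℕ) (b : B) (hb : b ∈ S t) (h0 : D^[n] b = 0) :
    ∃ k : ℕ → B, (∀ i, k i ∈ S (t + n * (p * d)) ∧ D (k i) = 0) ∧
      b = ∑ i ∈ range n, k i * y ^ i := by
  induction n generalizing t b with
  | zero => exact ⟨fun _ => 0, fun _ => ⟨zero_mem _, map_zero D⟩, by simpa using h0⟩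
  | succ n ih =>
    obtain ⟨z, hz⟩ := exists_inv_fact (p := p) (B := B) (k := n) hn
    have hit : ∀ m, D^[m] b ∈ S (t + m * d) := fun m => by
      induction m with
      | zero => simpa using hb
      | succ m ihm =>
        rw [Function.iterate_succ_apply', Nat.succ_mul, ← add_assoc]
        exact hD _ _ ihm
    have hle : t + n * d ≤ t + p * d := by gcongr; omega
    have hk : z • D^[n] b ∈ S (t + p * d) := zsmul_mem (hmo hle (hit n)) z
    have hk0 : D (z • D^[n] b) = 0 := by
      rw [map_zsmul, ← Function.iterate_succ_apply' D, h0, smul_zero]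
    have hy' : ∀ m, (z • D^[n] b) * y ^ m ∈ S (t + p * d) := fun m => by
      induction m with
      | zero => simpa using hk
      | succ m ihm => rw [pow_succ, ← mul_assoc]; exact hS _ _ ihm
    obtain ⟨k, hk1, hk2⟩ := ih (by omega) (t + p * d) (b - (z • D^[n] b) * y ^ n)
      (sub_mem (hmo (Nat.le_add_right _ _) hb) (hy' n)) (by
        rw [iter_eq, map_sub, ← iter_eq, ← iter_eq, iter_mul_pow D hy hk0, zsmul_eq_mul,
          mul_right_comm, hz, one_mul, sub_self])
    have e : t + p * d + n * (p * d) = t + (n + 1) * (p * d) := by ring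
    refine ⟨fun i => if i = n then z • D^[n] b else k i, fun i => ?_, ?_⟩
    · by_cases hi : i = n
      · simp only [hi, if_true]
        exact ⟨hmo (by rw [← e]; exact Nat.le_add_right _ _) hk, hk0⟩
      · simp only [hi, if_false]
        exact e ▸ hk1 i
    · beta_reduce
      rw [sum_range_succ, if_pos rfl,
        sum_congr rfl fun i hi => by rw [if_neg (mem_range.1 hi).ne], ← hk2, sub_add_cancel]

/-- Taylor expansion in several variables -/
theorem taylor_many [Ch p B] (D : Fin c → Derivation A B B) {y : Fin c → B}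
    (hy : ∀ i l, D i (y l) = if i = l then 1 else 0) (hc : ∀ i l b, D i (D l b) = D l (D i b))
    (hn : ∀ i b, (D i)^[p] b = 0) (S : ℕ → AddSubgroup B) (hmo : Monotone S) (d : ℕ)
    (hD : ∀ i t, ∀ b ∈ S t, D i b ∈ S (t + d)) (hS : ∀ i t, ∀ b ∈ S t, b * y i ∈ S t)
    (t : ℕ) (b : B) (hb : b ∈ S t) :
    ∃ k : (Fin c → Fin p) → B, (∀ al, k al ∈ S (t + c * (p * (p * d))) ∧ ∀ i, D i (k al) = 0) ∧
      b = ∑ al, k al * mn y al := by
  have : NeZero p := ⟨hp.out.ne_zero⟩
  have key : ∀ s : Finset (Fin c), ∃ k : (Fin c → Fin p) → B,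
      (∀ al, k al ∈ S (t + s.card * (p * (p * d))) ∧ (∀ i ∈ s, D i (k al) = 0) ∧
        ((∃ i, i ∉ s ∧ al i ≠ 0) → k al = 0)) ∧ b = ∑ al, k al * mn y al := by
    intro s
    induction s using Finset.induction_on with
    | empty =>
      refine ⟨fun al => if al = 0 then b else 0, fun al => ⟨?_, by simp, ?_⟩, ?_⟩
      · beta_reduce
        split_ifs
        · simpa using hb
        · exact zero_mem _
      · rintro ⟨i, -, hi⟩
        exact if_neg fun h => hi (by simp [h])
      · simp [mn_zero]
    | insert j s hj ih =>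
      obtain ⟨k, hk, e⟩ := ih
      let S' : ℕ → AddSubgroup B := fun t => S t ⊓ ⨅ i ∈ s, (D i : B →ₗ[A] B).toAddMonoidHom.ker
      have hS' : ∀ t z, z ∈ S' t ↔ z ∈ S t ∧ ∀ i ∈ s, D i z = 0 := fun t z => by
        simp [S', AddSubgroup.mem_iInf]
      have h1 : ∀ al, ∃ k' : ℕ → B, (∀ i, k' i ∈ S' (t + s.card * (p * (p * d)) + p * (p * d)) ∧
          D j (k' i) = 0) ∧ k al = ∑ i ∈ range p, k' i * y j ^ i := fun al =>
        taylor (D j) (by rw [hy, if_pos rfl]) S' (fun _ _ h => inf_le_inf_right _ (hmo h)) d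
          (fun t z hz => (hS' _ _).2 ⟨hD _ _ _ ((hS' _ _).1 hz).1, fun i hi => by
            rw [hc, ((hS' _ _).1 hz).2 i hi, map_zero]⟩)
          (fun t z hz => (hS' _ _).2 ⟨hS _ _ _ ((hS' _ _).1 hz).1, fun i hi => by
            rw [Derivation.leibniz, ((hS' _ _).1 hz).2 i hi, hy,
              if_neg fun h : i = j => hj (h ▸ hi), smul_zero, smul_zero, add_zero]⟩)
          p le_rfl _ _ ((hS' _ _).2 ⟨(hk al).1, (hk al).2.1⟩) (hn j _)
      choose k' hk' e' using h1
      refine ⟨fun al => if ∃ i, i ∉ insert j s ∧ al i ≠ 0 then 0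
        else k' (Function.update al j 0) (al j), fun al => ⟨?_, fun i hi => ?_, fun h => if_pos h⟩,
        ?_⟩
      · beta_reduce
        split_ifs
        · exact zero_mem _
        · rw [card_insert_of_notMem hj, Nat.succ_mul, ← add_assoc]
          exact ((hS' _ _).1 (hk' _ _).1).1
      · beta_reduce
        split_ifs
        · exact map_zero _
        · rcases mem_insert.1 hi with rfl | hi
          · exact (hk' _ _).2
          · exact ((hS' _ _).1 (hk' _ _).1).2 i hi
      · rw [e, ← (Equiv.funSplitAt j (Fin p)).symm.sum_comp,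
          ← (Equiv.funSplitAt j (Fin p)).symm.sum_comp, Fintype.sum_prod_type,
          Fintype.sum_prod_type, sum_comm, sum_comm (s := univ (α := Fin p))]
        refine sum_congr rfl fun f _ => ?_
        let g : Fin p → Fin c → Fin p := fun a => (Equiv.funSplitAt j (Fin p)).symm (a, f)
        have gj : ∀ a, g a j = a := fun a => by simp [g]
        have gu : ∀ a a', Function.update (g a) j a' = g a' := fun a a' => by
          funext i
          by_cases hi : i = j
          · rw [hi, Function.update_self, gj]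
          · rw [Function.update_of_ne hi]; simp [g, hi]
        have gm : ∀ a, mn y (g a) = y j ^ (a : ℕ) * mn y (g 0) := fun a => by
          rw [mn, mn, ← mon_single, ← mon_add]
          congr 1
          funext i
          by_cases hi : i = j
          · simp [hi, gj]
          · simp [g, hi]
        show ∑ a, k (g a) * mn y (g a) = ∑ a, (if ∃ i, i ∉ insert j s ∧ g a i ≠ 0 then 0
          else k' (Function.update (g a) j 0) (g a j)) * mn y (g a)
        rw [sum_eq_single 0 (fun a _ ha => by
          rw [(hk _).2.2 ⟨j, hj, by rwa [gj]⟩, zero_mul]) (by simp)]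
        by_cases hx : ∃ i, i ∉ insert j s ∧ g 0 i ≠ 0
        · obtain ⟨i, hi, hi'⟩ := hx
          have hij : i ≠ j := fun h => hi (h ▸ mem_insert_self _ _)
          rw [(hk _).2.2 ⟨i, fun h => hi (mem_insert_of_mem h), hi'⟩, zero_mul]
          refine (sum_eq_zero fun a _ => ?_).symm
          rw [if_pos ⟨i, hi, by simpa [g, hij] using hi'⟩, zero_mul]
        · rw [e', sum_mul, ← Fin.sum_univ_eq_sum_range (fun i => k' (g 0) i * y j ^ i * mn y (g 0))]
          refine sum_congr rfl fun a _ => ?_
          rw [if_neg, gu, gj, gm a, mul_assoc]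
          rintro ⟨i, hi, hi'⟩
          have hij : i ≠ j := fun h => hi (h ▸ mem_insert_self _ _)
          exact hx ⟨i, hi, by simpa [g, hij] using hi'⟩
  obtain ⟨k, hk, e⟩ := key univ
  exact ⟨k, fun al => ⟨by simpa using (hk al).1, fun i => (hk al).2.1 i (mem_univ _)⟩, e⟩

namespace IsMon

variable [Ch p B] {u : Fin c → B} (h : IsMon A p u)

include h in
/-- the partial derivatives -/
theorem exists_der (j : Fin c) :
    ∃ D : Derivation A B B, ∀ l, D (u l) = if j = l then 1 else 0 := by
  have : Ch p (TrivSqZeroExt B B) := Ch.of_hom (TrivSqZeroExt.inlHom B B)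
  obtain ⟨f, hf⟩ := h.exists_hom (Q := TrivSqZeroExt B B)
    (fun l => TrivSqZeroExt.inl (u l) + TrivSqZeroExt.inr (if j = l then 1 else 0))
    fun i a ha => by
      obtain ⟨d, hd⟩ : ∃ d, p = d + 2 := ⟨p - 2, by have := hp.out.two_le; omega⟩
      have h2 : ∀ z : B, (TrivSqZeroExt.inr z : TrivSqZeroExt B B) ^ p = 0 := fun z => by
        rw [hd, pow_add, pow_two, TrivSqZeroExt.inr_mul_inr, mul_zero]
      rw [add_pow_p, h2, add_zero, TrivSqZeroExt.algebraMap_eq_inl', ha, TrivSqZeroExt.inl_pow]
  have h1 : ∀ b, (f b).fst = b := fun b =>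
    AlgHom.congr_fun (h.hom_ext (f := (TrivSqZeroExt.fstHom A B B).comp f) (g := AlgHom.id A B)
      fun i => by by_cases hi : j = i <;> simp [hf, hi]) b
  refine ⟨Derivation.mk' (((TrivSqZeroExt.sndHom B B).restrictScalars A).comp f.toLinearMap)
    fun a b => ?_, fun l => ?_⟩
  · simp [TrivSqZeroExt.snd_mul, h1, mul_comm]
  · by_cases hi : j = l <;> simp [hf, hi]

include h in
/-- the common kernel of the partial derivatives -/
theorem mem_of_der {D : Fin c → Derivation A B B}
    (hD : ∀ j l, D j (u l) = if j = l then 1 else 0) {b : B} (hb : ∀ j, D j b = 0) :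
    ∃ a : A, algebraMap A B a = b := by
  have : NeZero p := ⟨hp.out.ne_zero⟩
  have : Ch p A := Ch.of_inj _ h.inj
  obtain ⟨s, rfl⟩ := h.exists_sum b
  have h1 : ∀ j (al : Fin c → ℕ), u j * D j (mon u al) = (al j : B) * mon u al := fun j al => by
    have e : mon u al = u j ^ al j * ∏ i ∈ univ.erase j, u i ^ al i :=
      (mul_prod_erase univ (fun i => u i ^ al i) (mem_univ j)).symm
    have e2 : D j (∏ i ∈ univ.erase j, u i ^ al i) = 0 := by
      refine prod_induction _ (fun z => D j z = 0) (fun a b ha hb => ?_) (D j).map_one_eq_zero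
        fun i hi => ?_
      · rw [Derivation.leibniz, ha, hb, smul_zero, smul_zero, add_zero]
      · rw [Derivation.leibniz_pow, hD, if_neg (ne_of_mem_erase hi).symm, smul_zero, smul_zero]
    rw [e, Derivation.leibniz, e2, Derivation.leibniz_pow, hD, if_pos rfl]
    rcases Nat.eq_zero_or_pos (al j) with h0 | h0
    · simp [h0]
    · obtain ⟨d, hd⟩ : ∃ d, al j = d + 1 := ⟨al j - 1, by omega⟩
      simp only [hd, smul_eq_mul, nsmul_eq_mul, Nat.add_sub_cancel]
      ring
  have h2 : ∀ al, al ≠ 0 → s al = 0 := fun al hal => by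
    obtain ⟨j, hj⟩ := Function.ne_iff.1 hal
    have h3 : ∑ be, (((be j : ℕ) : A) * s be) • mn u be = 0 := by
      have := congrArg (u j * ·) (hb j)
      simp only [map_sum, mul_sum, Derivation.map_smul, mul_smul_comm, mn, h1, mul_zero] at this
      rw [← this]
      refine sum_congr rfl fun be _ => ?_
      rw [mul_comm, mul_smul, Nat.cast_smul_eq_nsmul, nsmul_eq_mul, mn]
    exact ((isUnit_nat (p := p) (Nat.pos_of_ne_zero fun h0 => hj (Fin.ext h0))
      (al j).2).mul_right_eq_zero).1 (h.eq_zero h3 al)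
  refine ⟨s 0, ?_⟩
  rw [sum_eq_single 0 (fun al _ hal => by rw [h2 al hal, zero_smul]) (by simp), mn_zero,
    Algebra.algebraMap_eq_smul_one]

end IsMon

end P261.PB
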