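import Vale.Agent.P261Z.W.Pf

/-!
# P261Z, block N6: algebras with a basis of truncated monomials
-/

noncomputable section

namespace P261.PB

open Finset

variable {A B : Type*} [CommRing A] [CommRing B] {c n : ℕ}

/-- the monomial with exponents `al` -/
def mon (x : Fin c → B) (al : Fin c → ℕ) : B := ∏ i, x i ^ al i

/-- the monomial with truncated exponents -/
def mn (x : Fin c → B) (al : Fin c → Fin n) : B := mon x fun i => al i

theorem mon_add (x : Fin c → B) (al be : Fin c → ℕ) : mon x (al + be) = mon x al * mon x be := by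
  simp only [mon, Pi.add_apply, pow_add, prod_mul_distrib]

theorem mon_zero (x : Fin c → B) : mon x 0 = 1 := by simp [mon]

theorem mon_single (x : Fin c → B) (i : Fin c) (k : ℕ) : mon x (Pi.single i k) = x i ^ k := by
  unfold mon
  rw [prod_eq_single i (fun j _ hj => by simp [hj]) (by simp)]
  simp

theorem mon_mul (x : Fin c → B) (k : ℕ) (al : Fin c → ℕ) :
    mon x (fun i => k * al i) = mon x al ^ k := by
  simp only [mon, ← prod_pow, ← pow_mul, mul_comm]

theorem mon_pow (x : Fin c → B) (k : ℕ) (al : Fin c → ℕ) :
    mon (fun i => x i ^ k) al = mon x al ^ k := by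
  simp only [mon, ← prod_pow, ← pow_mul, mul_comm]

theorem map_mon {Q F : Type*} [CommRing Q] [FunLike F B Q] [MonoidHomClass F B Q] (f : F)
    (x : Fin c → B) (al : Fin c → ℕ) : f (mon x al) = mon (fun i => f (x i)) al := by
  simp only [mon, map_prod, map_pow]

theorem map_mn {Q F : Type*} [CommRing Q] [FunLike F B Q] [MonoidHomClass F B Q] (f : F)
    (x : Fin c → B) (al : Fin c → Fin n) : f (mn x al) = mn (fun i => f (x i)) al :=
  map_mon f x _

theorem mon_mem {S : Subring B} {x : Fin c → B} (hx : ∀ i, x i ∈ S) (al : Fin c → ℕ) :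
    mon x al ∈ S := prod_mem fun i _ => pow_mem (hx i) _

theorem mn_mem {S : Subring B} {x : Fin c → B} (hx : ∀ i, x i ∈ S) (al : Fin c → Fin n) :
    mn x al ∈ S := mon_mem hx _

theorem mn_zero [NeZero n] (x : Fin c → B) : mn x (0 : Fin c → Fin n) = 1 := by
  simp [mn, mon]

theorem mon_div (x : Fin c → B) (hn : 0 < n) (al : Fin c → ℕ) :
    mon x al = mon (fun i => x i ^ n) (fun i => al i / n) *
      mn x (fun i => (⟨al i % n, Nat.mod_lt _ hn⟩ : Fin n)) := by
  rw [mon_pow, ← mon_mul, mn, ← mon_add]
  congr 1
  funext i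
  exact (Nat.div_add_mod (al i) n).symm

variable [Algebra A B]

variable (A n) in
/-- `x_i^n` lies in `A` and the monomials with exponents below `n` are a basis -/
structure IsMon (x : Fin c → B) : Prop where
  pos : 0 < n
  pw : ∀ i, ∃ a : A, algebraMap A B a = x i ^ n
  ind : LinearIndependent A (mn x : (Fin c → Fin n) → B)
  sp : ⊤ ≤ Submodule.span A (Set.range (mn x : (Fin c → Fin n) → B))

namespace IsMon

variable {x : Fin c → B} (h : IsMon A n x)

/-- the basis of monomials -/
def basis : Module.Basis (Fin c → Fin n) A B := Module.Basis.mk h.ind h.sp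

@[simp] theorem basis_apply (al : Fin c → Fin n) : h.basis al = mn x al :=
  Module.Basis.mk_apply _ _ _

include h in
theorem inj : Function.Injective (algebraMap A B) := by
  have : NeZero n := ⟨h.pos.ne'⟩
  refine (injective_iff_map_eq_zero _).2 fun a ha => ?_
  have h1 : a • h.basis 0 = 0 := by
    rw [basis_apply, mn_zero, Algebra.smul_def, ha, zero_mul]
  have h2 := congrArg (fun z => h.basis.repr z 0) h1
  simpa [-basis_apply] using h2

include h in
theorem exists_sum (b : B) : ∃ a : (Fin c → Fin n) → A, b = ∑ al, a al • mn x al :=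
  ⟨fun al => h.basis.repr b al, by simpa using (h.basis.sum_repr b).symm⟩

include h in
theorem eq_zero {a : (Fin c → Fin n) → A} (ha : ∑ al, a al • mn x al = 0) (al : Fin c → Fin n) :
    a al = 0 := Fintype.linearIndependent_iff.1 h.ind a ha al

/-- the coefficient of `1` -/
def ret : B →ₗ[A] A := h.basis.coord fun _ => ⟨0, h.pos⟩

theorem ret_sum (a : (Fin c → Fin n) → A) :
    h.ret (∑ al, a al • mn x al) = a fun _ => ⟨0, h.pos⟩ := by
  simp only [← h.basis_apply, ret, Module.Basis.coord_apply, Module.Basis.repr_sum_self]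

theorem ret_one : h.ret 1 = 1 := by
  have : (1 : B) = h.basis fun _ => ⟨0, h.pos⟩ := by simp [mn, mon]
  rw [this, ret, Module.Basis.coord_apply, Module.Basis.repr_self, Finsupp.single_eq_same]

theorem ret_alg (a : A) : h.ret (algebraMap A B a) = a := by
  rw [Algebra.algebraMap_eq_smul_one, map_smul, ret_one, smul_eq_mul, mul_one]

variable {Q : Type*} [CommRing Q] [Algebra A Q]

include h in
/-- algebra maps are determined by the images of the generators -/
theorem hom_ext {f g : B →ₐ[A] Q} (hfg : ∀ i, f (x i) = g (x i)) : f = g := by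
  refine AlgHom.toLinearMap_injective (h.basis.ext fun al => ?_)
  simp only [basis_apply, AlgHom.toLinearMap_apply, map_mn, hfg]

include h in
/-- the universal property -/
theorem exists_hom (x' : Fin c → Q)
    (hx : ∀ i a, algebraMap A B a = x i ^ n → algebraMap A Q a = x' i ^ n) :
    ∃ f : B →ₐ[A] Q, ∀ i, f (x i) = x' i := by
  choose a ha using h.pw
  let l : B →ₗ[A] Q := h.basis.constr A (mn x')
  have hl : ∀ al : Fin c → Fin n, l (mn x al) = mn x' al := fun al => by
    rw [← h.basis_apply]; exact h.basis.constr_basis A _ al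
  have hm : ∀ al, l (mon x al) = mon x' al := fun al => by
    rw [mon_div x h.pos, mon_div x' h.pos]
    have e1 : (fun i => x i ^ n) = fun i => algebraMap A B (a i) := funext fun i => (ha i).symm
    have e2 : (fun i => x' i ^ n) = fun i => algebraMap A Q (a i) :=
      funext fun i => (hx i _ (ha i)).symm
    rw [e1, e2, ← map_mon, ← map_mon, ← Algebra.smul_def, ← Algebra.smul_def, map_smul, hl]
  have hmul : ∀ b b', l (b * b') = l b * l b' := fun b b' => by
    obtain ⟨s, rfl⟩ := h.exists_sum b
    obtain ⟨t, rfl⟩ := h.exists_sum b'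
    simp only [sum_mul, mul_sum, map_sum, smul_mul_smul_comm, map_smul, hl]
    simp only [mn, ← mon_add, hm]
  refine ⟨AlgHom.ofLinearMap l (by rw [← mon_zero x, hm, mon_zero]) hmul, fun i => ?_⟩
  have := hm (Pi.single i 1)
  rwa [mon_single, mon_single, pow_one, pow_one] at this

include h in
/-- derivations are determined by the images of the generators -/
theorem der_ext {M : Type*} [AddCommGroup M] [Module B M] [Module A M] [IsScalarTower A B M]
    {D : Derivation A B M} (hD : ∀ i, D (x i) = 0) (b : B) : D b = 0 := by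
  obtain ⟨s, rfl⟩ := h.exists_sum b
  rw [map_sum]
  refine sum_eq_zero fun al _ => ?_
  have : D (mn x al) = 0 := by
    unfold mn mon
    refine prod_induction _ (fun z => D z = 0) (fun a b ha hb => ?_) D.map_one_eq_zero
      fun i _ => ?_
    · rw [Derivation.leibniz, ha, hb, smul_zero, smul_zero, add_zero]
    · rw [Derivation.leibniz_pow, hD, smul_zero, smul_zero]
  rw [Derivation.map_smul, this, smul_zero]

end IsMon

/-- splitting an exponent into its lowest digit and the rest -/
def spl (c a b : ℕ) : (Fin c → Fin a) × (Fin c → Fin b) ≃ (Fin c → Fin (a * b)) :=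
  (Equiv.arrowProdEquivProdArrow _ _ _).symm.trans
    (Equiv.piCongrRight fun _ => finProdFinEquiv)

omit [Algebra A B] in
theorem mn_spl (x : Fin c → B) {a b : ℕ} (be : Fin c → Fin a) (ga : Fin c → Fin b) :
    mn x (spl c a b (be, ga)) = mn x be ^ b * mn x ga := by
  rw [mn, mn, mn, ← mon_mul, ← mon_add]
  congr 1
  funext i
  simp [spl, add_comm]

end P261.PB
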