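import Vale.Agent.P261Z.PB.Der

/-!
# P261Z, block N6: change of `p`-basis with control of the poles
-/

noncomputable section

namespace P261.PB

open Finset

variable {p : ℕ} [hp : Fact p.Prime] {B : Type*} [CommRing B] {c : ℕ}

/-- spanning over `n`-th powers, with loss `v^e` -/
def SP (Lam : Subring B) (v : B) (e n : ℕ) (u : Fin c → B) : Prop :=
  ∀ g ∈ Lam, ∃ r : (Fin c → Fin n) → B, (∀ al, r al ∈ Lam) ∧ v ^ e * g = ∑ al, r al ^ n * mn u al

/-- independence over `n`-th powers -/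
def IND (n : ℕ) (u : Fin c → B) : Prop :=
  ∀ r : (Fin c → Fin n) → B, ∑ al, r al ^ n * mn u al = 0 → ∀ al, r al = 0

/-- `B = Lam[1/v]` -/
structure Lat (Lam : Subring B) (v : B) : Prop where
  unit : IsUnit v
  mem : v ∈ Lam
  exh : ∀ b, ∃ t : ℕ, v ^ t * b ∈ Lam

/-- poles of order at most `t` -/
def Pol (Lam : Subring B) (v : B) (t : ℕ) : AddSubgroup B :=
  Lam.toAddSubgroup.comap (AddMonoidHom.mulLeft (v ^ t))

variable {Lam : Subring B} {v : B} {e e' n t s : ℕ} {u y : Fin c → B}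

theorem mem_Pol {b : B} : b ∈ Pol Lam v t ↔ v ^ t * b ∈ Lam := Iff.rfl

theorem Pol_mono (hv : v ∈ Lam) : Monotone (Pol Lam v) := fun t s h b hb => by
  obtain ⟨d, rfl⟩ := Nat.exists_eq_add_of_le h
  rw [mem_Pol, add_comm, pow_add, mul_assoc]
  exact mul_mem (pow_mem hv d) hb

theorem Pol_mul {a b : B} (ha : a ∈ Pol Lam v t) (hb : b ∈ Pol Lam v s) :
    a * b ∈ Pol Lam v (t + s) := by
  rw [mem_Pol, pow_add, mul_mul_mul_comm]
  exact mul_mem ha hb

theorem Pol_of_mem (hv : v ∈ Lam) {a : B} (ha : a ∈ Lam) : a ∈ Pol Lam v t :=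
  mul_mem (pow_mem hv t) ha

theorem Pol_det {ι : Type*} [Fintype ι] [DecidableEq ι] {M : Matrix ι ι B}
    (h : ∀ i j, M i j ∈ Pol Lam v t) : M.det ∈ Pol Lam v (Fintype.card ι * t) := by
  rw [Matrix.det_apply]
  refine sum_mem fun σ _ => zsmul_mem ?_ _
  rw [mem_Pol, mul_comm _ t, pow_mul, ← card_univ, ← prod_const, ← prod_mul_distrib]
  exact prod_mem fun i _ => h _ _

theorem SP.pol (h : SP Lam v e n u) (hv : v ∈ Lam) {b : B} (hb : b ∈ Pol Lam v t)
    (hs : t + e ≤ s) : ∃ r : (Fin c → Fin n) → B, (∀ al, r al ∈ Lam) ∧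
      v ^ s * b = ∑ al, r al ^ n * mn u al := by
  obtain ⟨d, rfl⟩ := Nat.exists_eq_add_of_le hs
  obtain ⟨r, hr, e1⟩ := h _ (mem_Pol.1 (Pol_mono hv (Nat.le_add_right t d) hb))
  exact ⟨r, hr, by rw [← e1]; ring⟩

theorem SP.mono (h : SP Lam v e n u) (hv : v ∈ Lam) (he : e ≤ e') : SP Lam v e' n u :=
  fun _ hg => h.pol (t := 0) hv (Pol_of_mem hv hg) (by omega)

theorem SP.exists_sum (h : SP Lam v e n u) (hL : Lat Lam v) (hn : 0 < n) (b : B) :
    ∃ r : (Fin c → Fin n) → B, b = ∑ al, r al ^ n * mn u al := by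
  obtain ⟨t, ht⟩ := hL.exh b
  obtain ⟨w, hw⟩ := hL.unit.exists_left_inv
  obtain ⟨r, -, e1⟩ := h.pol (s := (t + e) * n) hL.mem ht (Nat.le_mul_of_pos_right _ hn)
  refine ⟨fun al => w ^ (t + e) * r al, ?_⟩
  simp only [mul_pow, mul_assoc, ← mul_sum, ← e1, ← pow_mul]
  rw [← mul_assoc, ← mul_pow, hw, one_pow, one_mul]

theorem SP.one (hn : n = 1) : SP Lam v 0 n u := by
  subst hn
  exact fun g hg => ⟨fun _ => g, fun _ => hg, by simp [mn, mon]⟩

theorem IND.one (hn : n = 1) : IND n u := by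
  subst hn
  intro r hr al
  rw [Fintype.sum_subsingleton _ al] at hr
  simpa [mn, mon] using hr

theorem IND.red (h : IND n u) (hn : 0 < n) {b : B} (hb : b ^ n = 0) : b = 0 :=
  h (fun _ => b) (by simp [hb]) fun _ => ⟨0, hn⟩

/-- independence only has to be checked on the lattice -/
theorem IND.of_lat (hL : Lat Lam v) (h : ∀ r : (Fin c → Fin n) → B, (∀ al, r al ∈ Lam) →
    ∑ al, r al ^ n * mn u al = 0 → ∀ al, r al = 0) : IND n u := fun r hr al => by
  choose t ht using fun al => hL.exh (r al)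
  have h1 := h (fun al => v ^ (univ.sup t) * r al)
    (fun al => Pol_mono hL.mem (le_sup (mem_univ al)) (ht al))
    (by simp only [mul_pow, mul_assoc, ← mul_sum, hr, mul_zero]) al
  exact ((hL.unit.pow _).mul_right_eq_zero).1 h1

variable [Ch p B]

theorem sum_pow_p {ι : Type*} (s : Finset ι) (x : ι → B) :
    (∑ i ∈ s, x i) ^ p = ∑ i ∈ s, x i ^ p := map_sum (fr p B) x s

theorem SP.mul (h1 : SP Lam v e p u) (h : SP Lam v e' n u) :
    SP Lam v (e + p * e') (n * p) u := fun g hg => by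
  obtain ⟨r, hr, e1⟩ := h1 g hg
  choose s hs e2 using fun ga => h _ (hr ga)
  refine ⟨fun al => s ((spl c n p).symm al).2 ((spl c n p).symm al).1, fun al => hs _ _, ?_⟩
  rw [← (spl c n p).sum_comp, Fintype.sum_prod_type_right, add_comm, pow_add, mul_assoc, e1,
    mul_sum]
  refine sum_congr rfl fun ga _ => ?_
  rw [← mul_assoc, mul_comm p, pow_mul, ← mul_pow, e2, sum_pow_p, sum_mul]
  refine sum_congr rfl fun be _ => ?_
  beta_reduce
  rw [Equiv.symm_apply_apply, mn_spl, mul_pow, pow_mul, mul_assoc]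

theorem IND.mul (h1 : IND p u) (h : IND n u) : IND (n * p) u := fun r hr al => by
  obtain ⟨⟨be, ga⟩, rfl⟩ := (spl c n p).surjective al
  refine h (fun be => r (spl c n p (be, ga))) ?_ be
  refine h1 (fun ga => ∑ be, r (spl c n p (be, ga)) ^ n * mn u be) ?_ ga
  rw [← hr, ← (spl c n p).sum_comp, Fintype.sum_prod_type_right]
  refine sum_congr rfl fun ga _ => ?_
  rw [sum_pow_p, sum_mul]
  refine sum_congr rfl fun be _ => ?_
  rw [mn_spl, mul_pow, pow_mul, mul_assoc]

theorem SP.pow (h : SP Lam v e p u) (hv : v ∈ Lam) (m : ℕ) :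
    SP Lam v (p ^ m * e) (p ^ m) u := by
  have key : ∃ d, d + e ≤ p ^ m * e ∧ SP Lam v d (p ^ m) u := by
    induction m with
    | zero => exact ⟨0, by simp, SP.one (pow_zero p)⟩
    | succ m ih =>
      obtain ⟨d, hd, h2⟩ := ih
      refine ⟨e + p * d, ?_, pow_succ p m ▸ h.mul h2⟩
      have h3 := Nat.mul_le_mul_left p hd
      have h4 := Nat.mul_le_mul_right e hp.out.two_le
      rw [pow_succ', mul_assoc]
      rw [mul_add] at h3
      omega
  obtain ⟨d, hd, h2⟩ := key
  exact h2.mono hv (by omega)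

theorem IND.pow (h : IND p u) (m : ℕ) : IND (p ^ m) u := by
  induction m with
  | zero => exact IND.one (pow_zero p)
  | succ m ih => exact pow_succ p m ▸ h.mul ih

theorem isMon_fr (hL : Lat Lam v) (h : SP Lam v e p u) (h' : IND p u) :
    IsMon (fr p B).range p u where
  pos := hp.out.pos
  pw i := ⟨⟨u i ^ p, u i, rfl⟩, rfl⟩
  ind := Fintype.linearIndependent_iff.2 fun g hg al => by
    choose r hr using fun al => (g al).2
    have h1 := h' r (by
      rw [← hg]
      exact sum_congr rfl fun al _ => congrArg (· * mn u al) (hr al)) al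
    exact Subtype.ext (by rw [← hr, h1, map_zero]; rfl)
  sp b _ := by
    obtain ⟨r, rfl⟩ := h.exists_sum hL hp.out.pos b
    exact sum_mem fun al _ => Submodule.smul_mem _ (⟨r al ^ p, r al, rfl⟩ : (fr p B).range)
      (Submodule.subset_span ⟨al, rfl⟩)

/-- poles of derivations -/
theorem SP.der {A : Type*} [CommRing A] [Algebra A B] (h : SP Lam v e p u) (hv : v ∈ Lam)
    (hu : ∀ l, u l ∈ Lam) (D : Derivation A B B) (hD : ∀ l, D (u l) ∈ Pol Lam v s) {b : B}
    (hb : b ∈ Pol Lam v t) : D b ∈ Pol Lam v (t + (e + p + s)) := by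
  have h1 := Nat.lt_div_mul_add (a := t + e) hp.out.pos
  have h2 := Nat.div_mul_le_self (t + e) p
  obtain ⟨r, hr, e1⟩ := h.pol (s := ((t + e) / p + 1) * p) hv hb (by rw [Nat.succ_mul]; omega)
  refine Pol_mono hv (a := s + ((t + e) / p + 1) * p) (by rw [Nat.succ_mul]; omega) ?_
  have e2 := congrArg D e1
  rw [pow_mul, Derivation.leibniz, der_pow_p, smul_zero, add_zero, smul_eq_mul, ← pow_mul] at e2
  rw [mem_Pol, pow_add, mul_assoc, e2, ← mem_Pol, map_sum]
  refine sum_mem fun al _ => ?_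
  rw [Derivation.leibniz, der_pow_p, smul_zero, add_zero, smul_eq_mul]
  have h0 : ∀ a ∈ Lam, ∀ b ∈ Pol Lam v s, a * b ∈ Pol Lam v s := fun a ha b hb => by
    simpa using Pol_mul (Pol_of_mem (t := 0) hv ha) hb
  have h3 : ∀ a b, a ∈ Lam ∧ D a ∈ Pol Lam v s → b ∈ Lam ∧ D b ∈ Pol Lam v s →
      a * b ∈ Lam ∧ D (a * b) ∈ Pol Lam v s := fun a b ha hb =>
    ⟨mul_mem ha.1 hb.1, D.leibniz a b ▸ add_mem (h0 _ ha.1 _ hb.2) (h0 _ hb.1 _ ha.2)⟩
  have h4 : (1 : B) ∈ Lam ∧ D 1 ∈ Pol Lam v s :=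
    ⟨one_mem _, D.map_one_eq_zero ▸ zero_mem _⟩
  unfold mn mon
  refine h0 _ (pow_mem (hr al) p) _ (prod_induction _ (fun a => a ∈ Lam ∧ D a ∈ Pol Lam v s) h3
    h4 fun i _ => ?_).2
  beta_reduce
  induction (al i : ℕ) with
  | zero => rw [pow_zero]; exact h4
  | succ k ih => rw [pow_succ]; exact h3 _ _ ih ⟨hu i, hD i⟩

omit hp [Ch p B] in
theorem der_sum_apply {A M ι : Type*} [CommRing A] [Algebra A B] [AddCommGroup M] [Module B M]
    [Module A M] (s : Finset ι) (D : ι → Derivation A B M) (b : B) :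
    (∑ i ∈ s, D i) b = ∑ i ∈ s, D i b := by
  rw [← Finset.sum_apply, ← Derivation.coeFn_coe]
  exact congrFun (map_sum Derivation.coeFnAddMonoidHom D s) b

/-- the Jacobian determinant of `y` with respect to `u` divides `v^M` -/
def JAC (Lam : Subring B) (v : B) (M : ℕ) (u y : Fin c → B) : Prop :=
  ∀ D : Fin c → Derivation ℤ B B, (∀ j l, D j (u l) = if j = l then 1 else 0) →
    ∃ w ∈ Lam, (Matrix.of fun i j => D j (y i)).det * w = v ^ M

/-- the loss -/
def loss (p c e M : ℕ) : ℕ := p * (e + c * (p * (p * (e + p + (M + c * (e + p))))))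

/-- change of `p`-basis -/
theorem change {M : ℕ} (hL : Lat Lam v) (h : SP Lam v e p u) (h' : IND p u) (hu : ∀ l, u l ∈ Lam)
    (hy : ∀ l, y l ∈ Lam) (hJ : JAC Lam v M u y) : SP Lam v (loss p c e M) p y ∧ IND p y := by
  have hm := isMon_fr hL h h'
  have hv := hL.mem
  choose d hd using hm.exists_der
  obtain ⟨w, hw, e1⟩ := hJ (fun j => (d j).restrictScalars ℤ) hd
  obtain ⟨v', hv'⟩ := (hL.unit.pow M).exists_left_inv
  set J : Matrix (Fin c) (Fin c) B := Matrix.of fun i j => d j (y i) with hJd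
  replace e1 : J.det * w = v ^ M := e1
  have hJp : ∀ i j, J i j ∈ Pol Lam v (e + p) := fun i j => by
    simpa [hJd] using h.der (s := 0) (t := 0) hv hu (d j) (fun l => Pol_of_mem hv (by
      rw [hd]; split_ifs; exacts [one_mem _, zero_mem _])) (Pol_of_mem hv (hy i))
  set K : Matrix (Fin c) (Fin c) B := (v' * w) • J.adjugate with hK
  have hJK : J * K = 1 := by
    rw [hK, Matrix.mul_smul, Matrix.mul_adjugate, smul_smul, mul_assoc, mul_comm w, e1, hv',
      one_smul]
  have hKJ : K * J = 1 := mul_eq_one_comm.1 hJK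
  have hKp : ∀ i j, K i j ∈ Pol Lam v (M + c * (e + p)) := fun i j => by
    refine Pol_mul (a := v' * w) (by rwa [mem_Pol, ← mul_assoc, mul_comm _ v', hv', one_mul]) ?_
    have := Pol_det (Lam := Lam) (v := v) (t := e + p) (M := J.updateRow j (Pi.single i 1))
      fun a b => by
        rw [Matrix.updateRow_apply]
        split_ifs
        · refine Pol_of_mem hv ?_
          rw [Pi.single_apply]; split_ifs; exacts [one_mem _, zero_mem _]
        · exact hJp _ _
    rwa [Fintype.card_fin, ← Matrix.adjugate_apply] at this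
  let D : Fin c → Derivation (fr p B).range B B := fun i => ∑ j, K j i • d j
  have hD : ∀ i b, D i b = ∑ j, d j b * K j i := fun i b => by
    simp only [D, der_sum_apply, Derivation.smul_apply, smul_eq_mul, mul_comm]
  have hDy : ∀ i l, D i (y l) = if i = l then 1 else 0 := fun i l => by
    have := congrFun (congrFun hJK l) i
    rw [Matrix.mul_apply, Matrix.one_apply] at this
    rw [hD, ← if_congr eq_comm rfl rfl, ← this]
    rfl
  have hDu : ∀ i l, D i (u l) = K l i := fun i l => by simp [hD, hd]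
  have hE : ∀ E : Derivation (fr p B).range B B, (∀ l, E (y l) = 0) → ∀ b, E b = 0 := by
    intro E hE
    have h1 : ∀ b, E b = ∑ j, d j b * E (u j) := fun b => by
      have := hm.der_ext (D := E - ∑ j, E (u j) • d j) (fun l => by
        simp [der_sum_apply, hd]) b
      simpa [der_sum_apply, sub_eq_zero, mul_comm] using this
    have h2 : J.mulVec (fun j => E (u j)) = 0 := funext fun l => (h1 (y l)).symm.trans (hE l)
    have h3 : (fun j => E (u j)) = 0 := by
      rw [← Matrix.one_mulVec fun j => E (u j), ← hKJ, ← Matrix.mulVec_mulVec, h2,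
        Matrix.mulVec_zero]
    exact hm.der_ext (congrFun h3)
  have hDD : ∀ i l k, D i (D l (y k)) = 0 := fun i l k => by
    rw [hDy]; split_ifs; exacts [(D i).map_one_eq_zero, map_zero _]
  have hsp : SP Lam v (loss p c e M) p y := fun g hg => by
    obtain ⟨k, hk, e2⟩ := taylor_many D hDy
      (fun i l b => sub_eq_zero.1 (hE ⁅D i, D l⁆ (fun k => by
        rw [Derivation.commutator_apply, hDD, hDD, sub_zero]) b))
      (fun i b => (powDer_apply _ _).symm.trans (hE _ (fun k => by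
        have h2 : ∀ n, 2 ≤ n → (D i)^[n] (y k) = 0 := fun n hn => by
          obtain ⟨d, rfl⟩ := Nat.exists_eq_add_of_le' hn
          rw [Function.iterate_succ_apply, Function.iterate_succ_apply, hDD, iter_eq, map_zero]
        rw [powDer_apply, h2 p hp.out.two_le]) b))
      (Pol Lam v) (Pol_mono hv) (e + p + (M + c * (e + p)))
      (fun i t b hb => h.der hv hu (D i) (fun l => hDu i l ▸ hKp l i) hb)
      (fun i t b hb => Pol_mul (s := 0) hb (Pol_of_mem hv (hy i))) 0 g (Pol_of_mem hv hg)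
    have h1 : ∀ al, ∃ r ∈ Lam, v ^ loss p c e M * k al = r ^ p := fun al => by
      have h2 : Matrix.vecMul (fun j => d j (k al)) K = 0 :=
        funext fun i => (hD i _).symm.trans ((hk al).2 i)
      have h3 : (fun j => d j (k al)) = 0 := by
        rw [← Matrix.vecMul_one fun j => d j (k al), ← hKJ, ← Matrix.vecMul_vecMul, h2,
          Matrix.zero_vecMul]
      obtain ⟨⟨_, a, rfl⟩, ha⟩ := hm.mem_of_der hd (congrFun h3)
      replace ha : a ^ p = k al := ha
      obtain ⟨r, hr, e3⟩ := h.pol (s := loss p c e M) hv (hk al).1 (by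
        rw [zero_add, add_comm]; exact Nat.le_mul_of_pos_left _ hp.out.pos)
      have : NeZero p := ⟨hp.out.ne_zero⟩
      refine ⟨r 0, hr 0, ?_⟩
      rw [← ha, loss, mul_comm p, pow_mul, ← mul_pow] at e3 ⊢
      generalize v ^ _ * a = z at e3 ⊢
      have h4 := h' (r - Pi.single 0 z) (by
        have h5 : ∀ be, (r - Pi.single 0 z : (Fin c → Fin p) → B) be ^ p =
            r be ^ p - if be = 0 then z ^ p else 0 := fun be => by
          rw [← fr_apply, Pi.sub_apply, map_sub, Pi.single_apply, apply_ite (fr p B), map_zero]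
          rfl
        simp only [h5]
        simp [sub_mul, ← e3, mn_zero]) 0
      rw [Pi.sub_apply, Pi.single_eq_same, sub_eq_zero] at h4
      rw [h4]
    choose r hr e3 using h1
    exact ⟨r, hr, by rw [e2, mul_sum]; simp only [← e3, mul_assoc]⟩
  refine ⟨hsp, fun r hr al => h'.red hp.out.pos ?_⟩
  let f := Fintype.linearCombination (fr p B).range (mn y : (Fin c → Fin p) → B)
  have hf : Function.Surjective f := fun b => by
    obtain ⟨r, rfl⟩ := hsp.exists_sum hL hp.out.pos b
    exact ⟨fun al => ⟨r al ^ p, r al, rfl⟩, rfl⟩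
  have hi := OrzechProperty.injective_of_surjective_endomorphism
    (hm.basis.equivFun.toLinearMap ∘ₗ f) (hm.basis.equivFun.surjective.comp hf)
  have h1 := hi (a₁ := fun al => ⟨r al ^ p, r al, rfl⟩) (a₂ := 0) (by
    rw [map_zero, LinearMap.comp_apply, show f _ = 0 from hr, map_zero])
  exact congrArg Subtype.val (congrFun h1 al)

end P261.PB
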