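import Vale.Agent.P261Z.PB.Pol

/-!
# P261Z, block N6: a `p`-basis of the base is a `p`-basis of a Galois extension, up to `v`
-/

noncomputable section

namespace P261.PB

open Finset

variable {p : ℕ} [hp : Fact p.Prime] {R B U Δ I : Type*} [CommRing R] [CommRing B] [CommRing U]
  [Fintype Δ] [DecidableEq Δ] [Fintype I] {c N : ℕ}

variable (N) in
/-- Galois data up to `v^N` -/
structure Gal (Lam : Subring B) (v : B) (f : R →+* B) (ι : B →+* U) (σ : Δ → B →+* U) (δ₀ : Δ)
    (a b : I → B) : Prop where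
  inj : Function.Injective ι
  inj' : Function.Injective f
  mem : ∀ r, f r ∈ Lam
  base : σ δ₀ = ι
  fix : ∀ δ r, σ δ (f r) = ι (f r)
  a_mem : ∀ i, a i ∈ Lam
  b_mem : ∀ i, b i ∈ Lam
  sep : ∀ δ, ∑ i, ι (a i) * σ δ (b i) = if δ = δ₀ then ι v ^ N else 0
  tr : ∀ g ∈ Lam, ∃ r, ι (f r) = ∑ δ, σ δ g

namespace Gal

variable {Lam : Subring B} {v : B} {f : R →+* B} {ι : B →+* U} {σ : Δ → B →+* U} {δ₀ : Δ}
  {a b : I → B} (G : Gal N Lam v f ι σ δ₀ a b)

include G

omit hp in
theorem expand {g : B} {r : I → R} (hr : ∀ i, ι (f (r i)) = ∑ δ, σ δ (b i * g)) :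
    v ^ N * g = ∑ i, a i * f (r i) := G.inj (by
  simp only [map_sum, map_mul, hr, mul_sum, ← mul_assoc]
  rw [sum_comm]
  simp only [← sum_mul, G.sep, ite_mul, zero_mul, sum_ite_eq', mem_univ, if_true, G.base, map_pow])

variable [Ch p U]

theorem pow : Gal (p * N) Lam v f ι σ δ₀ (fun i => a i ^ p) fun i => b i ^ p :=
  { G with
    a_mem := fun i => pow_mem (G.a_mem i) p
    b_mem := fun i => pow_mem (G.b_mem i) p
    sep := fun δ => by
      simp only [map_pow, ← mul_pow, ← sum_pow_p, G.sep]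
      split_ifs
      · rw [← pow_mul, mul_comm]
      · exact zero_pow hp.out.ne_zero }

variable {v₀ : R} {u : Fin c → R}

theorem sp (h : SP ⊤ v₀ 0 p u) : SP Lam v (p * N) p fun j => f (u j) := fun g hg => by
  have : Ch p B := Ch.of_inj ι G.inj
  choose r hr using fun i => G.tr (b i ^ p * g) (mul_mem (pow_mem (G.b_mem i) p) hg)
  choose s _ hs using fun i => h (r i) trivial
  refine ⟨fun be => ∑ i, a i * f (s i be), fun be => sum_mem fun i _ =>
    mul_mem (G.a_mem i) (G.mem _), ?_⟩
  rw [G.pow.expand hr]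
  simp only [sum_pow_p, sum_mul]
  rw [sum_comm]
  refine sum_congr rfl fun i _ => ?_
  rw [← one_mul (r i), ← pow_zero v₀, hs]
  simp only [map_sum, map_mul, map_pow, map_mn, mul_sum, mul_pow, mul_assoc]

theorem ind (hL : Lat Lam v) (h : IND p u) : IND p fun j => f (u j) :=
  IND.of_lat hL fun r hr e be => by
    choose s hs using fun i be => G.tr (b i * r be) (mul_mem (G.b_mem i) (hr be))
    have h1 : ∀ i be, s i be = 0 := fun i => h _ (G.inj' (G.inj (by
      have h2 : ∑ δ, σ δ (b i ^ p * ∑ be, r be ^ p * mn (fun j => f (u j)) be) = 0 := by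
        simp only [e, mul_zero, map_zero, sum_const_zero]
      simp only [← map_mn, mul_sum, ← mul_assoc, ← mul_pow, map_sum, map_mul _ (_ ^ p), G.fix,
        map_pow] at h2
      rw [sum_comm] at h2
      simp only [map_sum, map_mul _ (_ ^ p), map_pow, hs, sum_pow_p, sum_mul, h2, map_zero])))
    have h2 := G.expand (hs · be)
    simp only [h1, map_zero, mul_zero, sum_const_zero] at h2
    exact ((hL.unit.pow _).mul_right_eq_zero).1 h2

end Gal

end P261.PB
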